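import Vale.Agent.Lib.P173.A.Defs

/-! # P173, part A: the chain modules of the coset poset and their exactness -/

namespace Vale.Agent.P173
namespace ColGraph

variable (K : ColGraph) (A : Type) [CommGroup A]

/-- pairs `s < t` -/
abbrev I1 : Type := {p : K.Clq × K.Clq // K.lt p.1 p.2}

/-- triples `s < t < u` -/
abbrev I2 : Type := {p : K.Clq × K.Clq × K.Clq // K.lt p.1 p.2.1 ∧ K.lt p.2.1 p.2.2}

/-- 0-chains of the coset poset -/
structure S0 where
  p : K.Clq
  x : K.W A ⧸ K.asub A p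

/-- 1-chains of the coset poset -/
structure S1 where
  p : K.I1
  x : K.W A ⧸ K.asub A p.1.1

/-- 2-chains of the coset poset -/
structure S2 where
  p : K.I2
  x : K.W A ⧸ K.asub A p.1.1

noncomputable instance : MulAction (K.G A) (K.S0 A) where
  smul g y := ⟨y.p, K.incl A g • y.x⟩
  one_smul y := by
    show (⟨y.p, K.incl A 1 • y.x⟩ : K.S0 A) = y
    rw [map_one, one_smul]
  mul_smul g h y := by
    show (⟨y.p, K.incl A (g * h) • y.x⟩ : K.S0 A) =
      ⟨y.p, K.incl A g • (K.incl A h • y.x)⟩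
    rw [map_mul, mul_smul]

noncomputable instance : MulAction (K.G A) (K.S1 A) where
  smul g y := ⟨y.p, K.incl A g • y.x⟩
  one_smul y := by
    show (⟨y.p, K.incl A 1 • y.x⟩ : K.S1 A) = y
    rw [map_one, one_smul]
  mul_smul g h y := by
    show (⟨y.p, K.incl A (g * h) • y.x⟩ : K.S1 A) =
      ⟨y.p, K.incl A g • (K.incl A h • y.x)⟩
    rw [map_mul, mul_smul]

noncomputable instance : MulAction (K.G A) (K.S2 A) where
  smul g y := ⟨y.p, K.incl A g • y.x⟩
  one_smul y := by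
    show (⟨y.p, K.incl A 1 • y.x⟩ : K.S2 A) = y
    rw [map_one, one_smul]
  mul_smul g h y := by
    show (⟨y.p, K.incl A (g * h) • y.x⟩ : K.S2 A) =
      ⟨y.p, K.incl A g • (K.incl A h • y.x)⟩
    rw [map_mul, mul_smul]

theorem incl_pi (g : K.G A) : K.pi A (K.incl A g) = 1 := by
  have := g.2
  exact this

theorem incl_inj {g : K.G A} (h : K.incl A g = 1) : g = 1 := Subtype.ext h

/-- key: `G ∩ w A_s w⁻¹ = 1` -/
theorem smul_quot_eq (s : K.Clq) (g : K.G A) (x : K.W A ⧸ K.asub A s)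
    (h : K.incl A g • x = x) : g = 1 := by
  induction x using QuotientGroup.induction_on with
  | H w =>
    have h2 : w⁻¹ * (K.incl A g * w) ∈ K.asub A s := by
      have h3 : ((K.incl A g * w : K.W A) : K.W A ⧸ K.asub A s) = (w : K.W A ⧸ K.asub A s) := h
      exact QuotientGroup.eq.1 h3.symm
    have h4 : w⁻¹ * (K.incl A g * w) = 1 := by
      apply K.asub_inf A s _ h2
      rw [map_mul, map_mul, incl_pi, one_mul, map_inv, inv_mul_cancel]
    have h5 : K.incl A g = 1 := by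
      have : K.incl A g * w = w := by
        have := congrArg (fun z => w * z) h4
        simpa [mul_assoc] using this
      simpa using this
    exact K.incl_inj A h5

theorem free0 (g : K.G A) (x : K.S0 A) (h : g • x = x) : g = 1 := by
  obtain ⟨s, x⟩ := x
  have h2 : (⟨s, K.incl A g • x⟩ : K.S0 A) = ⟨s, x⟩ := h
  exact K.smul_quot_eq A s g x (eq_of_heq (S0.mk.inj h2).2)

theorem free1 (g : K.G A) (x : K.S1 A) (h : g • x = x) : g = 1 := by
  obtain ⟨s, x⟩ := x
  have h2 : (⟨s, K.incl A g • x⟩ : K.S1 A) = ⟨s, x⟩ := h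
  exact K.smul_quot_eq A s.1.1 g x (eq_of_heq (S1.mk.inj h2).2)

theorem free2 (g : K.G A) (x : K.S2 A) (h : g • x = x) : g = 1 := by
  obtain ⟨s, x⟩ := x
  have h2 : (⟨s, K.incl A g • x⟩ : K.S2 A) = ⟨s, x⟩ := h
  exact K.smul_quot_eq A s.1.1 g x (eq_of_heq (S2.mk.inj h2).2)

variable {K} in
theorem lt_trans' {s t u : K.Clq} (h1 : K.lt s t) (h2 : K.lt t u) : K.lt s u :=
  HasSSubset.SSubset.trans h1 h2

/-- the map of coset spaces for `s ⊆ t` -/
def proj (s t : K.Clq) (h : K.lt s t) : K.W A ⧸ K.asub A s → K.W A ⧸ K.asub A t :=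
  Subgroup.quotientMapOfLE (K.asub_mono A h.1)

theorem proj_mk (s t : K.Clq) (h : K.lt s t) (w : K.W A) :
    K.proj A s t h (w : K.W A ⧸ K.asub A s) = (w : K.W A ⧸ K.asub A t) := rfl

theorem proj_smul (s t : K.Clq) (h : K.lt s t) (w : K.W A) (x : K.W A ⧸ K.asub A s) :
    K.proj A s t h (w • x) = w • K.proj A s t h x := by
  induction x using QuotientGroup.induction_on with
  | H z => rfl

/-- basis element of the 0-chains -/
noncomputable def e0 (s : K.Clq) (x : K.W A ⧸ K.asub A s) : K.S0 A →₀ ℤ :=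
  Finsupp.single (⟨s, x⟩ : K.S0 A) 1

/-- basis element of the 1-chains -/
noncomputable def e1 (p : K.I1) (x : K.W A ⧸ K.asub A p.1.1) : K.S1 A →₀ ℤ :=
  Finsupp.single (⟨p, x⟩ : K.S1 A) 1

/-- basis element of the 2-chains -/
noncomputable def e2 (p : K.I2) (x : K.W A ⧸ K.asub A p.1.1) : K.S2 A →₀ ℤ :=
  Finsupp.single (⟨p, x⟩ : K.S2 A) 1

/-- boundary of a 1-chain -/
noncomputable def D1 : (K.S1 A →₀ ℤ) →ₗ[ℤ] (K.S0 A →₀ ℤ) :=
  Finsupp.linearCombination ℤ fun y : K.S1 A =>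
    K.e0 A y.p.1.2 (K.proj A _ _ y.p.2 y.x) - K.e0 A y.p.1.1 y.x

/-- boundary of a 2-chain -/
noncomputable def D2 : (K.S2 A →₀ ℤ) →ₗ[ℤ] (K.S1 A →₀ ℤ) :=
  Finsupp.linearCombination ℤ fun y : K.S2 A =>
    K.e1 A ⟨(y.p.1.1, y.p.1.2.1), y.p.2.1⟩ y.x +
      K.e1 A ⟨(y.p.1.2.1, y.p.1.2.2), y.p.2.2⟩ (K.proj A _ _ y.p.2.1 y.x) -
      K.e1 A ⟨(y.p.1.1, y.p.1.2.2), lt_trans' y.p.2.1 y.p.2.2⟩ y.x

/-- augmentation -/
noncomputable def D0 : (K.S0 A →₀ ℤ) →ₗ[ℤ] ℤ :=
  Finsupp.linearCombination ℤ fun _ : K.S0 A => (1 : ℤ)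

theorem D1_e1 (p : K.I1) (x : K.W A ⧸ K.asub A p.1.1) :
    K.D1 A (K.e1 A p x) = K.e0 A p.1.2 (K.proj A _ _ p.2 x) - K.e0 A p.1.1 x := by
  unfold D1 e1
  rw [Finsupp.linearCombination_single, one_smul]

theorem D2_e2 (p : K.I2) (x : K.W A ⧸ K.asub A p.1.1) :
    K.D2 A (K.e2 A p x) = K.e1 A ⟨(p.1.1, p.1.2.1), p.2.1⟩ x +
      K.e1 A ⟨(p.1.2.1, p.1.2.2), p.2.2⟩ (K.proj A _ _ p.2.1 x) -
      K.e1 A ⟨(p.1.1, p.1.2.2), lt_trans' p.2.1 p.2.2⟩ x := by
  unfold D2 e2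
  rw [Finsupp.linearCombination_single, one_smul]

theorem D0_e0 (s : K.Clq) (x : K.W A ⧸ K.asub A s) : K.D0 A (K.e0 A s x) = 1 := by
  unfold D0 e0
  rw [Finsupp.linearCombination_single, one_smul]

theorem proj_proj (s t u : K.Clq) (h1 : K.lt s t) (h2 : K.lt t u) (x : K.W A ⧸ K.asub A s) :
    K.proj A t u h2 (K.proj A s t h1 x) = K.proj A s u (lt_trans' h1 h2) x := by
  induction x using QuotientGroup.induction_on with
  | H z => rfl

theorem D1_D2 (z : K.S2 A →₀ ℤ) : K.D1 A (K.D2 A z) = 0 := by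
  suffices h : (K.D1 A).comp (K.D2 A) = 0 from congrArg (fun f => f z) h
  apply Finsupp.lhom_ext'
  rintro ⟨p, x⟩
  apply LinearMap.ext_ring
  show K.D1 A (K.D2 A (K.e2 A p x)) = 0
  rw [D2_e2, map_sub, map_add, D1_e1, D1_e1, D1_e1, proj_proj]
  abel

theorem D0_D1 (z : K.S1 A →₀ ℤ) : K.D0 A (K.D1 A z) = 0 := by
  suffices h : (K.D0 A).comp (K.D1 A) = 0 from congrArg (fun f => f z) h
  apply Finsupp.lhom_ext'
  rintro ⟨p, x⟩
  apply LinearMap.ext_ring
  show K.D0 A (K.D1 A (K.e1 A p x)) = 0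
  rw [D1_e1, map_sub, D0_e0, D0_e0, sub_self]

open Classical in
theorem D2_injective (h : K.CosetH2 A) : Function.Injective (K.D2 A) := by
  obtain ⟨g, hg1, hg2⟩ := h (K.S2 A →₀ ℤ)
    (fun s t u w => if hl : K.lt s t ∧ K.lt t u then
      K.e2 A ⟨(s, t, u), hl⟩ (w : K.W A ⧸ K.asub A s) else 0) (by
      intro s t u w v a hv
      have : ((w * K.of A v a : K.W A) : K.W A ⧸ K.asub A s) = (w : K.W A ⧸ K.asub A s) := by
        apply QuotientGroup.eq.2
        rw [mul_inv_rev, inv_mul_cancel_right]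
        exact inv_mem (Subgroup.subset_closure ⟨v, hv, a, trivial, rfl⟩)
      simp only [this])
  have hginv : ∀ s t w x, x ∈ K.asub A s → g s t (w * x) = g s t w := fun s t w x hx =>
    K.inv_asub A s (g s t) (fun w v hv a => hg1 s t w v a hv) w x hx
  let r : (K.S1 A →₀ ℤ) →ₗ[ℤ] (K.S2 A →₀ ℤ) :=
    Finsupp.linearCombination ℤ fun y : K.S1 A => g y.p.1.1 y.p.1.2 y.x.out
  have hr : ∀ (p : K.I1) (w : K.W A), r (K.e1 A p (w : K.W A ⧸ K.asub A p.1.1)) =
      g p.1.1 p.1.2 w := by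
    intro p w
    show Finsupp.linearCombination ℤ (fun y : K.S1 A => g y.p.1.1 y.p.1.2 y.x.out)
      (Finsupp.single (⟨p, (w : K.W A ⧸ K.asub A p.1.1)⟩ : K.S1 A) 1) = _
    rw [Finsupp.linearCombination_single, one_smul]
    show g p.1.1 p.1.2 ((w : K.W A ⧸ K.asub A p.1.1)).out = _
    obtain ⟨y, hy⟩ := QuotientGroup.mk_out_eq_mul (K.asub A p.1.1) w
    rw [hy]
    exact hginv _ _ _ _ y.2
  have hret : r.comp (K.D2 A) = LinearMap.id := by
    apply Finsupp.lhom_ext'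
    rintro ⟨p, x⟩
    apply LinearMap.ext_ring
    show r (K.D2 A (K.e2 A p x)) = K.e2 A p x
    induction x using QuotientGroup.induction_on with
    | H w =>
      rw [D2_e2, map_sub, map_add, proj_mk, hr, hr, hr]
      have := hg2 p.1.1 p.1.2.1 p.1.2.2 w p.2.1 p.2.2
      rw [dif_pos p.2] at this
      exact this.symm
  intro a b hab
  have h1 : r (K.D2 A a) = r (K.D2 A b) := by rw [hab]
  have h2 : ∀ z, r (K.D2 A z) = z := fun z => congrArg (fun f => f z) hret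
  rwa [h2, h2] at h1

open Classical in
theorem exact1 (h : K.CosetH1 A) (z : K.S1 A →₀ ℤ) (hz : K.D1 A z = 0) :
    ∃ y, K.D2 A y = z := by
  obtain ⟨f, hf1, hf2⟩ := h ((K.S1 A →₀ ℤ) ⧸ (LinearMap.range (K.D2 A)))
    (fun s t w => if hl : K.lt s t then
      Submodule.Quotient.mk (K.e1 A ⟨(s, t), hl⟩ (w : K.W A ⧸ K.asub A s)) else 0) (by
      intro s t w v a hv
      have : ((w * K.of A v a : K.W A) : K.W A ⧸ K.asub A s) = (w : K.W A ⧸ K.asub A s) := by
        apply QuotientGroup.eq.2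
        rw [mul_inv_rev, inv_mul_cancel_right]
        exact inv_mem (Subgroup.subset_closure ⟨v, hv, a, trivial, rfl⟩)
      simp only [this]) (by
      intro s t u w h1 h2
      rw [dif_pos h1, dif_pos h2, dif_pos (lt_trans' h1 h2), ← Submodule.Quotient.mk_add]
      symm
      rw [Submodule.Quotient.eq]
      exact ⟨K.e2 A ⟨(s, t, u), h1, h2⟩ (w : K.W A ⧸ K.asub A s), K.D2_e2 A _ _⟩)
  have hfinv : ∀ s w x, x ∈ K.asub A s → f s (w * x) = f s w := fun s w x hx =>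
    K.inv_asub A s (f s) (fun w v hv a => hf1 s w v a hv) w x hx
  let r : (K.S0 A →₀ ℤ) →ₗ[ℤ] ((K.S1 A →₀ ℤ) ⧸ (LinearMap.range (K.D2 A))) :=
    Finsupp.linearCombination ℤ fun y : K.S0 A => f y.p y.x.out
  have hr : ∀ (s : K.Clq) (w : K.W A), r (K.e0 A s (w : K.W A ⧸ K.asub A s)) = f s w := by
    intro s w
    show Finsupp.linearCombination ℤ (fun y : K.S0 A => f y.p y.x.out)
      (Finsupp.single (⟨s, (w : K.W A ⧸ K.asub A s)⟩ : K.S0 A) 1) = _
    rw [Finsupp.linearCombination_single, one_smul]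
    show f s ((w : K.W A ⧸ K.asub A s)).out = _
    obtain ⟨y, hy⟩ := QuotientGroup.mk_out_eq_mul (K.asub A s) w
    rw [hy]
    exact hfinv _ _ _ y.2
  have hret : r.comp (K.D1 A) = (LinearMap.range (K.D2 A)).mkQ := by
    apply Finsupp.lhom_ext'
    rintro ⟨p, x⟩
    apply LinearMap.ext_ring
    show r (K.D1 A (K.e1 A p x)) = Submodule.Quotient.mk (K.e1 A p x)
    induction x using QuotientGroup.induction_on with
    | H w =>
      rw [D1_e1, map_sub, proj_mk, hr, hr]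
      have := hf2 p.1.1 p.1.2 w p.2
      rw [dif_pos p.2] at this
      exact this.symm
  have h2 : r (K.D1 A z) = Submodule.Quotient.mk z := congrArg (fun f => f z) hret
  rw [hz, map_zero] at h2
  exact (Submodule.Quotient.mk_eq_zero _).1 h2.symm

open Classical in
theorem exact0 (h : K.CosetH0 A) (hn : Nonempty K.V) (z : K.S0 A →₀ ℤ) (hz : K.D0 A z = 0) :
    ∃ y, K.D1 A y = z := by
  obtain ⟨v₀⟩ := hn
  let s₀ : K.Clq := ⟨{v₀}, by simp, by
    intro v hv w hw hne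
    simp only [Finset.mem_singleton] at hv hw
    exact absurd (hv.trans hw.symm) hne⟩
  have hc := h ((K.S0 A →₀ ℤ) ⧸ (LinearMap.range (K.D1 A)))
    (fun s w => Submodule.Quotient.mk (K.e0 A s (w : K.W A ⧸ K.asub A s))) (by
      intro s w v a hv
      have : ((w * K.of A v a : K.W A) : K.W A ⧸ K.asub A s) = (w : K.W A ⧸ K.asub A s) := by
        apply QuotientGroup.eq.2
        rw [mul_inv_rev, inv_mul_cancel_right]
        exact inv_mem (Subgroup.subset_closure ⟨v, hv, a, trivial, rfl⟩)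
      simp only [this]) (by
      intro s t w hl
      symm
      rw [Submodule.Quotient.eq]
      exact ⟨K.e1 A ⟨(s, t), hl⟩ (w : K.W A ⧸ K.asub A s), K.D1_e1 A _ _⟩)
  have hret : (LinearMap.range (K.D1 A)).mkQ =
      (LinearMap.toSpanSingleton ℤ _ (Submodule.Quotient.mk
        (K.e0 A s₀ ((1 : K.W A) : K.W A ⧸ K.asub A s₀)))).comp (K.D0 A) := by
    apply Finsupp.lhom_ext'
    rintro ⟨s, x⟩
    apply LinearMap.ext_ring
    show Submodule.Quotient.mk (K.e0 A s x) = LinearMap.toSpanSingleton ℤ _ _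
      (K.D0 A (K.e0 A s x))
    induction x using QuotientGroup.induction_on with
    | H w =>
      rw [D0_e0, LinearMap.toSpanSingleton_apply, one_smul]
      exact hc s s₀ w 1
  have h2 : (LinearMap.range (K.D1 A)).mkQ z = 0 := by
    rw [hret, LinearMap.comp_apply, hz, map_zero]
  exact (Submodule.Quotient.mk_eq_zero _).1 h2

end ColGraph
end Vale.Agent.P173
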