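import Vale.Agent.Lib.P173.A.Defs

/-! # P173, part A: minimal chambers in the cosets `w A_s` -/

namespace Vale.Agent.P173
namespace ColGraph

variable {K : ColGraph} {A : Type} [CommGroup A]

namespace NF

variable (N : K.NF A)

theorem cham_In_iff (s : Finset K.V) (u : K.V) (hu : ∀ v ∈ s, K.adj u v) (x : K.W A)
    (hx : x ∈ K.wsub A (s : Set K.V) Set.univ) :
    ∀ w : K.W A, (u ∈ N.In (w * x) ↔ u ∈ N.In w) := by
  unfold wsub at hx
  induction hx using Subgroup.closure_induction with
  | mem x hx =>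
    obtain ⟨v, hv, a, _, rfl⟩ := hx
    intro w
    exact N.comm w u v a (hu v hv)
  | one =>
    intro w
    rw [mul_one]
  | mul x y _ _ hx hy =>
    intro w
    rw [← mul_assoc, hy, hx]
  | inv x _ hx =>
    intro w
    have h := hx (w * x⁻¹)
    rw [inv_mul_cancel_right] at h
    exact h.symm

theorem cham_letter (s : Finset K.V) (v : K.V) (hv : v ∈ s) (a : A) :
    K.of A v a ∈ K.wsub A (s : Set K.V) Set.univ :=
  Subgroup.subset_closure ⟨v, hv, a, Set.mem_univ a, rfl⟩

theorem cham_wsub_mono {s t : Finset K.V} (h : s ⊆ t) :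
    K.wsub A (s : Set K.V) Set.univ ≤ K.wsub A (t : Set K.V) Set.univ := by
  refine Subgroup.closure_mono ?_
  rintro x ⟨v, hv, a, ha, rfl⟩
  exact ⟨v, h hv, a, ha, rfl⟩

theorem cham_aux (s : Finset K.V) (hs : ∀ v ∈ s, ∀ w ∈ s, v ≠ w → K.adj v w) (w : K.W A) :
    ∃ x ∈ K.wsub A (s : Set K.V) Set.univ, (∀ v ∈ s, v ∉ N.In (w * x)) ∧
      N.ℓ (w * x) ≤ N.ℓ w ∧ ((∃ v ∈ s, v ∈ N.In w) → N.ℓ (w * x) < N.ℓ w) ∧
      ((∀ v ∈ s, v ∉ N.In w) → x = 1) := by
  classical
  induction s using Finset.induction_on with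
  | empty =>
    refine ⟨1, one_mem _, by simp, by rw [mul_one], ?_, fun _ => rfl⟩
    rintro ⟨v, hv, _⟩
    simp at hv
  | insert v s hvs IH =>
    obtain ⟨x, hx, h1, h2, h3, h4⟩ := IH fun a ha b hb =>
      hs a (Finset.mem_insert_of_mem ha) b (Finset.mem_insert_of_mem hb)
    have hadj : ∀ u ∈ s, K.adj v u := fun u hu =>
      hs v (Finset.mem_insert_self v s) u (Finset.mem_insert_of_mem hu)
        (fun h => hvs (h ▸ hu))
    have hiff : v ∈ N.In (w * x) ↔ v ∈ N.In w := N.cham_In_iff s v hadj x hx w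
    have hx' : x ∈ K.wsub A ((insert v s : Finset K.V) : Set K.V) Set.univ :=
      cham_wsub_mono (Finset.subset_insert v s) hx
    by_cases hv : v ∈ N.In (w * x)
    · obtain ⟨a, ha⟩ := N.exists_min (w * x) v
      have ha1 : a ≠ 1 := by
        rintro rfl
        rw [K.of_one, mul_one] at ha
        exact ha hv
      have hstep := N.step (w * x * K.of A v a) v a⁻¹ ha (inv_ne_one.2 ha1)
      have hback : w * x * K.of A v a * K.of A v a⁻¹ = w * x := by
        rw [mul_assoc, ← K.of_mul, mul_inv_cancel, K.of_one, mul_one]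
      rw [hback] at hstep
      have hl : N.ℓ (w * (x * K.of A v a)) < N.ℓ w := by
        rw [← mul_assoc]
        have := hstep.2
        omega
      refine ⟨x * K.of A v a, mul_mem hx' (cham_letter _ v (Finset.mem_insert_self v s) a), ?_,
        hl.le, fun _ => hl, ?_⟩
      · intro u hu
        rw [← mul_assoc]
        rcases Finset.mem_insert.1 hu with rfl | hu
        · exact ha
        · have huv : K.adj u v := K.symm _ _ (hadj u hu)
          rw [N.comm _ u v a huv]
          exact h1 u hu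
      · intro hall
        exfalso
        exact hall v (Finset.mem_insert_self v s) (hiff.1 hv)
    · refine ⟨x, hx', ?_, h2, ?_, ?_⟩
      · intro u hu
        rcases Finset.mem_insert.1 hu with rfl | hu
        · exact hv
        · exact h1 u hu
      · rintro ⟨u, hu, huw⟩
        rcases Finset.mem_insert.1 hu with rfl | hu
        · exact absurd (hiff.2 huw) hv
        · exact h3 ⟨u, hu, huw⟩
      · intro hall
        exact h4 fun u hu => hall u (Finset.mem_insert_of_mem hu)

theorem cham_split (s : Finset K.V) (v : K.V) (hadj : ∀ u ∈ s, K.adj v u) (x : K.W A)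
    (hx : x ∈ K.wsub A ((insert v (s : Set K.V) : Set K.V)) Set.univ) :
    ∃ y ∈ K.wsub A (s : Set K.V) Set.univ, ∃ a : A, x = y * K.of A v a := by
  have hcomm : ∀ y ∈ K.wsub A (s : Set K.V) Set.univ, ∀ a : A, Commute (K.of A v a) y := by
    intro y hy a
    unfold wsub at hy
    induction hy using Subgroup.closure_induction with
    | mem y hy =>
      obtain ⟨u, hu, b, _, rfl⟩ := hy
      exact K.of_comm A (hadj u hu) a b
    | one => exact Commute.one_right _
    | mul y z _ _ hy hz => exact hy.mul_right hz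
    | inv y _ hy => exact hy.inv_right
  unfold wsub at hx
  induction hx using Subgroup.closure_induction with
  | mem x hx =>
    obtain ⟨u, hu, b, _, rfl⟩ := hx
    rcases hu with rfl | hu
    · exact ⟨1, one_mem _, b, by rw [one_mul]⟩
    · exact ⟨K.of A u b, cham_letter s u hu b, 1, by rw [K.of_one, mul_one]⟩
  | one => exact ⟨1, one_mem _, 1, by rw [K.of_one, mul_one]⟩
  | mul x x' _ _ hx hx' =>
    obtain ⟨y, hy, a, rfl⟩ := hx
    obtain ⟨y', hy', a', rfl⟩ := hx'
    refine ⟨y * y', mul_mem hy hy', a * a', ?_⟩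
    rw [K.of_mul]
    calc y * K.of A v a * (y' * K.of A v a') = y * (K.of A v a * y') * K.of A v a' := by group
      _ = y * (y' * K.of A v a) * K.of A v a' := by rw [(hcomm y' hy' a).eq]
      _ = y * y' * (K.of A v a * K.of A v a') := by group
  | inv x _ hx =>
    obtain ⟨y, hy, a, rfl⟩ := hx
    refine ⟨y⁻¹, inv_mem hy, a⁻¹, ?_⟩
    rw [mul_inv_rev, K.of_inv]
    exact (((hcomm y hy a).inv_left).inv_right).eq

theorem cham_unique_aux (s : Finset K.V) (hs : ∀ v ∈ s, ∀ w ∈ s, v ≠ w → K.adj v w) (w : K.W A)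
    (x : K.W A) (hx : x ∈ K.wsub A (s : Set K.V) Set.univ) (h1 : ∀ v ∈ s, v ∉ N.In w)
    (h2 : ∀ v ∈ s, v ∉ N.In (w * x)) : x = 1 := by
  classical
  induction s using Finset.induction_on generalizing x with
  | empty =>
    have : K.wsub A ((∅ : Finset K.V) : Set K.V) Set.univ = ⊥ := by
      rw [wsub, Subgroup.closure_eq_bot_iff]
      rintro y ⟨v, hv, _⟩
      simp at hv
    rw [this, Subgroup.mem_bot] at hx
    exact hx
  | insert v s hvs IH =>
    have hadj : ∀ u ∈ s, K.adj v u := fun u hu =>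
      hs v (Finset.mem_insert_self v s) u (Finset.mem_insert_of_mem hu)
        (fun h => hvs (h ▸ hu))
    rw [Finset.coe_insert] at hx
    obtain ⟨y, hy, a, rfl⟩ := cham_split s v hadj x hx
    have hv : v ∉ N.In (w * y) := by
      rw [N.cham_In_iff s v hadj y hy w]
      exact h1 v (Finset.mem_insert_self v s)
    have ha : a = 1 := by
      by_contra hne
      have h3 := (N.step (w * y) v a hv hne).1
      rw [mul_assoc] at h3
      exact h2 v (Finset.mem_insert_self v s) h3
    subst ha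
    rw [K.of_one, mul_one] at h2 ⊢
    refine IH (fun a ha b hb =>
      hs a (Finset.mem_insert_of_mem ha) b (Finset.mem_insert_of_mem hb)) y hy
      (fun u hu => h1 u (Finset.mem_insert_of_mem hu)) fun u hu => ?_
    exact h2 u (Finset.mem_insert_of_mem hu)

/-- Existence of the minimal chamber `w * x` of the coset `w A_s`. Proof: enumerate the (at most
three, pairwise adjacent) vertices `v` of `s`; at each vertex multiply by the letter `a` of
`exists_min` (it does not change the other vertices of `s` by `comm`). If `v ∈ In w`, then the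
letter is `≠ 1` and `ℓ` drops by one: apply `step` to `w * of v a` and the letter `a⁻¹`. -/
theorem exists_cham (s : K.Clq) (w : K.W A) : ∃ x ∈ K.asub A s,
    (∀ v ∈ s.1, v ∉ N.In (w * x)) ∧ N.ℓ (w * x) ≤ N.ℓ w ∧
    ((∃ v ∈ s.1, v ∈ N.In w) → N.ℓ (w * x) < N.ℓ w) ∧
    ((∀ v ∈ s.1, v ∉ N.In w) → x = 1) :=
  N.cham_aux s.1 s.2.2 w

/-- Uniqueness: if `w` is minimal in `w A_s` and `x ∈ A_s`, `x ≠ 1`, then `w x` is not minimal.
Proof: write `x` as a product of letters at distinct vertices of `s` with entries `≠ 1`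
(as in `asub_inf`), use `step` and `comm`. -/
theorem cham_unique (s : K.Clq) (w : K.W A) (x : K.W A) (hx : x ∈ K.asub A s)
    (h1 : ∀ v ∈ s.1, v ∉ N.In w) (h2 : ∀ v ∈ s.1, v ∉ N.In (w * x)) : x = 1 :=
  N.cham_unique_aux s.1 s.2.2 w x hx h1 h2

open Classical in
/-- the minimal chamber of the coset `w A_s` -/
noncomputable def m (s : K.Clq) (w : K.W A) : K.W A :=
  w * (N.exists_cham s w).choose

theorem m_notMem (s : K.Clq) (w : K.W A) : ∀ v ∈ s.1, v ∉ N.In (N.m s w) :=
  (N.exists_cham s w).choose_spec.2.1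

theorem m_mem (s : K.Clq) (w : K.W A) : w⁻¹ * N.m s w ∈ K.asub A s := by
  unfold m
  simpa using (N.exists_cham s w).choose_spec.1

theorem ℓ_m_le (s : K.Clq) (w : K.W A) : N.ℓ (N.m s w) ≤ N.ℓ w :=
  (N.exists_cham s w).choose_spec.2.2.1

theorem ℓ_m_lt (s : K.Clq) (w : K.W A) (h : ∃ v ∈ s.1, v ∈ N.In w) :
    N.ℓ (N.m s w) < N.ℓ w :=
  (N.exists_cham s w).choose_spec.2.2.2.1 h

theorem m_eq_self (s : K.Clq) (w : K.W A) (h : ∀ v ∈ s.1, v ∉ N.In w) : N.m s w = w := by
  unfold m
  rw [(N.exists_cham s w).choose_spec.2.2.2.2 h, mul_one]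

/-- `m s` only depends on the coset -/
theorem m_coset (s : K.Clq) (w x : K.W A) (hx : x ∈ K.asub A s) : N.m s (w * x) = N.m s w := by
  have h1 := N.m_mem s w
  have h2 := N.m_mem s (w * x)
  have h3 : (N.m s w)⁻¹ * N.m s (w * x) ∈ K.asub A s := by
    have : (N.m s w)⁻¹ * N.m s (w * x) =
        (w⁻¹ * N.m s w)⁻¹ * x * ((w * x)⁻¹ * N.m s (w * x)) := by group
    rw [this]
    exact mul_mem (mul_mem (inv_mem h1) hx) h2
  have h4 := N.cham_unique s (N.m s w) _ h3 (N.m_notMem s w) (by
    rw [mul_inv_cancel_left]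
    exact N.m_notMem s (w * x))
  exact (inv_mul_eq_one.1 h4).symm

theorem m_of (s : K.Clq) (w : K.W A) (v : K.V) (a : A) (hv : v ∈ s.1) :
    N.m s (w * K.of A v a) = N.m s w :=
  N.m_coset s w _ (cham_letter s.1 v hv a)

theorem m_m (s t : K.Clq) (w : K.W A) (h : s.1 ⊆ t.1) : N.m t (N.m s w) = N.m t w := by
  have h1 := K.asub_mono A h (N.m_mem s w)
  have h2 := N.m_coset t w _ h1
  rw [mul_inv_cancel_left] at h2
  exact h2

theorem m_idem (s : K.Clq) (w : K.W A) : N.m s (N.m s w) = N.m s w :=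
  N.m_m s s w (Finset.Subset.refl _)

end NF
end ColGraph
end Vale.Agent.P173
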