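import Vale.Agent.Lib.P173.Interface
import Vale.Agent.Lib.P173.WBase

/-! # P173, part A: cochains on the poset of cosets `w A_s` -/

namespace Vale.Agent.P173
namespace ColGraph

variable (K : ColGraph) (A : Type) [CommGroup A]

/-- `H⁰` of the coset poset -/
def CosetH0 : Prop := ∀ (B : Type) [AddCommGroup B] (f : K.Clq → K.W A → B),
  (∀ s w v a, v ∈ s.1 → f s (w * K.of A v a) = f s w) →
  (∀ s t w, K.lt s t → f s w = f t w) → ∀ s t w w', f s w = f t w'

/-- `H¹ = 0` of the coset poset -/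
def CosetH1 : Prop := ∀ (B : Type) [AddCommGroup B] (g : K.Clq → K.Clq → K.W A → B),
  (∀ s t w v a, v ∈ s.1 → g s t (w * K.of A v a) = g s t w) →
  (∀ s t u w, K.lt s t → K.lt t u → g s u w = g s t w + g t u w) →
  ∃ f : K.Clq → K.W A → B, (∀ s w v a, v ∈ s.1 → f s (w * K.of A v a) = f s w) ∧
    ∀ s t w, K.lt s t → g s t w = f t w - f s w

/-- `H² = 0` of the coset poset (of dimension 2) -/
def CosetH2 : Prop := ∀ (B : Type) [AddCommGroup B] (h : K.Clq → K.Clq → K.Clq → K.W A → B),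
  (∀ s t u w v a, v ∈ s.1 → h s t u (w * K.of A v a) = h s t u w) →
  ∃ g : K.Clq → K.Clq → K.W A → B,
    (∀ s t w v a, v ∈ s.1 → g s t (w * K.of A v a) = g s t w) ∧
    ∀ s t u w, K.lt s t → K.lt t u → h s t u w = g s t w + g t u w - g s u w

/-- a normal form datum as provided by part W -/
structure NF where
  ℓ : K.W A → ℕ
  In : K.W A → Set K.V
  clique : ∀ w, ∀ v ∈ In w, ∀ u ∈ In w, v ≠ u → K.adj v u
  exists_min : ∀ w v, ∃ a : A, v ∉ In (w * K.of A v a)
  step : ∀ w v a, v ∉ In w → a ≠ 1 →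
      v ∈ In (w * K.of A v a) ∧ ℓ (w * K.of A v a) = ℓ w + 1
  comm : ∀ w u v a, K.adj u v → (u ∈ In (w * K.of A v a) ↔ u ∈ In w)

end ColGraph
end Vale.Agent.P173
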