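import Vale.Agent.Lib.P173.Interface

/-! # P173, part A: permutation modules of free actions are projective -/

namespace Vale.Agent.P173

private theorem FreeProj_reps (G S : Type) [Group G] [MulAction G S]
    (h : ∀ (g : G) (s : S), g • s = s → g = 1) :
    ∃ (rep : S → S) (el : S → G), (∀ (g : G) (s : S), rep (g • s) = rep s) ∧
      (∀ (g : G) (s : S), el (g • s) = g * el s) ∧ ∀ s : S, el s • rep s = s := by
  have hex : ∀ s : S, ∃ g : G,
      g • (Quotient.mk (MulAction.orbitRel G S) s).out = s := by
    intro s
    have h1 : (MulAction.orbitRel G S).r (Quotient.mk (MulAction.orbitRel G S) s).out s :=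
      Quotient.mk_out s
    obtain ⟨g, hg⟩ := (MulAction.orbitRel_apply.1 h1)
    refine ⟨g⁻¹, ?_⟩
    rw [← hg]
    exact inv_smul_smul g s
  choose el hel using hex
  have hrep : ∀ (g : G) (s : S), (Quotient.mk (MulAction.orbitRel G S) (g • s)).out =
      (Quotient.mk (MulAction.orbitRel G S) s).out := by
    intro g s
    congr 1
    exact Quotient.sound (MulAction.orbitRel_apply.2 ⟨g, rfl⟩)
  refine ⟨fun s => (Quotient.mk (MulAction.orbitRel G S) s).out, el, hrep, ?_, hel⟩
  intro g s
  have h1 : el (g • s) • (Quotient.mk (MulAction.orbitRel G S) s).out = g • s := by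
    rw [← hrep g s]
    exact hel (g • s)
  have h2 : ((g * el s)⁻¹ * el (g • s)) • (Quotient.mk (MulAction.orbitRel G S) s).out =
      (Quotient.mk (MulAction.orbitRel G S) s).out := by
    rw [mul_smul, h1, inv_smul_eq_iff, mul_smul, hel s]
  have h3 := h _ _ h2
  exact (inv_mul_eq_one.1 h3).symm

/-- `ℤ[S]` is a free, hence projective, `ℤ[G]`-module if `G` acts freely on `S`. Proof: choose
orbit representatives; `S ≃ G × (orbits)` equivariantly; `ℤ[G × Ω] ≅ ⨁_Ω ℤ[G]`. -/
theorem projective_ofMulAction (G S : Type) [Group G] [MulAction G S]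
    (h : ∀ (g : G) (s : S), g • s = s → g = 1) :
    Module.Projective (MonoidAlgebra ℤ G) (Representation.ofMulAction ℤ G S).asModule := by
  classical
  obtain ⟨rep, el, hrep, hel, hr⟩ := FreeProj_reps G S h
  refine Module.Projective.of_lifting_property'' fun f hf => ?_
  choose sec hsec using fun t : S => hf ((Representation.ofMulAction ℤ G S).asModuleEquiv.symm
    (MonoidAlgebra.single t 1))
  let φ : MonoidAlgebra ℤ S →ₗ[ℤ]
      ((Representation.ofMulAction ℤ G S).asModule →₀ MonoidAlgebra ℤ G) :=
    (Finsupp.linearCombination ℤ (fun s => MonoidAlgebra.single (el s) (1 : ℤ) • sec (rep s))) ∘ₗ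
      (MonoidAlgebra.coeffLinearEquiv ℤ).toLinearMap
  have hφ : ∀ s, φ (MonoidAlgebra.single s 1) =
      MonoidAlgebra.single (el s) (1 : ℤ) • sec (rep s) := by
    intro s
    simp [φ]
  let φ' : (Representation.ofMulAction ℤ G S).asModule →ₗ[ℤ]
      ((Representation.ofMulAction ℤ G S).asModule →₀ MonoidAlgebra ℤ G) :=
    φ ∘ₗ (Representation.ofMulAction ℤ G S).asModuleEquiv.toLinearMap
  have key : ∀ (g : G) (v : (Representation.ofMulAction ℤ G S).asModule),
      φ' (MonoidAlgebra.single g (1 : ℤ) • v) = MonoidAlgebra.single g (1 : ℤ) • φ' v := by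
    intro g v
    have h1 : φ' (MonoidAlgebra.single g (1 : ℤ) • v) =
        φ (Representation.ofMulAction ℤ G S g
          ((Representation.ofMulAction ℤ G S).asModuleEquiv v)) := by
      change φ ((Representation.ofMulAction ℤ G S).asModuleEquiv
        (MonoidAlgebra.single g (1 : ℤ) • v)) = _
      rw [Representation.asModuleEquiv_map_smul, Representation.asAlgebraHom_single, one_smul]
    rw [h1]
    change _ = MonoidAlgebra.single g (1 : ℤ) •
      φ ((Representation.ofMulAction ℤ G S).asModuleEquiv v)
    generalize (Representation.ofMulAction ℤ G S).asModuleEquiv v = w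
    induction w using MonoidAlgebra.induction_linear with
    | zero => simp
    | add x y hx hy => rw [map_add, map_add, map_add, smul_add, hx, hy]
    | single s n =>
      have h2 : (MonoidAlgebra.single s n : MonoidAlgebra ℤ S) =
          n • MonoidAlgebra.single s 1 := by
        rw [MonoidAlgebra.smul_single, smul_eq_mul, mul_one]
      rw [h2, map_smul, map_smul, map_smul, Representation.ofMulAction_single, hφ, hφ, hrep, hel,
        smul_comm (MonoidAlgebra.single g (1 : ℤ)) n, smul_smul (MonoidAlgebra.single g (1 : ℤ)),
        MonoidAlgebra.single_mul_single, mul_one]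
  refine ⟨MonoidAlgebra.equivariantOfLinearOfComm φ' key, ?_⟩
  refine LinearMap.ext fun v => ?_
  rw [LinearMap.comp_apply, MonoidAlgebra.equivariantOfLinearOfComm_apply, LinearMap.id_apply]
  change f (φ ((Representation.ofMulAction ℤ G S).asModuleEquiv v)) = v
  have h3 : ∀ w : MonoidAlgebra ℤ S,
      f (φ w) = (Representation.ofMulAction ℤ G S).asModuleEquiv.symm w := by
    intro w
    induction w using MonoidAlgebra.induction_linear with
    | zero => simp
    | add x y hx hy => rw [map_add, map_add, map_add, hx, hy]
    | single s n =>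
      have h2 : (MonoidAlgebra.single s n : MonoidAlgebra ℤ S) =
          n • MonoidAlgebra.single s 1 := by
        rw [MonoidAlgebra.smul_single, smul_eq_mul, mul_one]
      have h4 : MonoidAlgebra.single (el s) (1 : ℤ) •
          ((Representation.ofMulAction ℤ G S).asModuleEquiv.symm
            (MonoidAlgebra.single (rep s) 1)) =
          (Representation.ofMulAction ℤ G S).asModuleEquiv.symm (MonoidAlgebra.single s 1) := by
        have h5 := Representation.asModuleEquiv_symm_map_rho
          (Representation.ofMulAction ℤ G S) (el s) (MonoidAlgebra.single (rep s) 1)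
        rw [Representation.ofMulAction_single, hr] at h5
        exact h5.symm
      rw [h2, map_smul, map_zsmul, hφ, map_smul, hsec, h4, map_zsmul]
  rw [h3, LinearEquiv.symm_apply_apply]

end Vale.Agent.P173
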