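import Vale.Agent.Lib.P173.A.Defs

/-! # P173, part A: `H⁰` of the coset poset -/

namespace Vale.Agent.P173
namespace ColGraph

/-- `f` constant along `<` and invariant is constant: `K.H0` at fixed `w`, then `W_induction`
through `f {v} (w * of v a) = f {v} w`. -/
theorem cosetH0 (K : ColGraph) (A : Type) [CommGroup A] (h0 : K.H0) :
    K.CosetH0 A := by
  intro B _ f h1 h2 s t w w'
  have h3 : ∀ (w : K.W A) (s t : K.Clq), f s w = f t w := fun w =>
    h0 B (fun s => f s w) (fun s t hst => h2 s t w hst)
  have h4 : ∀ w : K.W A, ∀ s, f s w = f s 1 := by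
    intro w
    induction w using K.W_induction A with
    | h1 => exact fun s => rfl
    | hm w v a ih =>
      intro s
      have hv : ∀ x ∈ ({v} : Finset K.V), ∀ y ∈ ({v} : Finset K.V), x ≠ y → K.adj x y := by
        intro x hx y hy hxy
        rw [Finset.mem_singleton] at hx hy
        exact absurd (hx.trans hy.symm) hxy
      let sv : K.Clq := ⟨{v}, Finset.singleton_nonempty v, hv⟩
      have h5 : f sv (w * K.of A v a) = f sv w := h1 sv w v a (Finset.mem_singleton_self v)
      rw [h3 (w * K.of A v a) s sv, h5, h3 w sv s, ih s]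
  rw [h4 w s, h4 w' t]
  exact h3 1 s t

end ColGraph
end Vale.Agent.P173
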