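import Vale.Agent.Lib.P173.A.Cham

/-! # P173, part A: `H¹ = 0` of the coset poset -/

namespace Vale.Agent.P173
namespace ColGraph

/-- the clique `{v}` -/
def h1sg (K : ColGraph) (v : K.V) : K.Clq :=
  ⟨{v}, Finset.singleton_nonempty v, by
    intro a ha b hb hab
    rw [Finset.mem_singleton] at ha hb
    exact absurd (ha.trans hb.symm) hab⟩

open Classical in
/-- the clique `{u, v}` spanned by two vertices of `In w` -/
noncomputable def h1pr {K : ColGraph} {A : Type} [CommGroup A] (N : K.NF A) (w : K.W A) (u v : K.V)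
    (hu : u ∈ N.In w) (hv : v ∈ N.In w) : K.Clq :=
  ⟨{u, v}, ⟨u, by simp⟩, by
    have key : ∀ a ∈ ({u, v} : Finset K.V), a ∈ N.In w := by
      intro a ha
      rcases Finset.mem_insert.1 ha with h | h
      · rw [h]
        exact hu
      · rw [Finset.mem_singleton.1 h]
        exact hv
    intro a ha b hb hab
    exact N.clique w a (key a ha) b (key b hb) hab⟩

theorem h1_drop {K : ColGraph} {A : Type} [CommGroup A] (N : K.NF A) (w : K.W A) (v : K.V)
    (hv : v ∈ N.In w) : ∃ a : A, v ∉ N.In (w * K.of A v a) ∧ N.ℓ (w * K.of A v a) < N.ℓ w := by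
  obtain ⟨a, ha⟩ := N.exists_min w v
  refine ⟨a, ha, ?_⟩
  have ha1 : a⁻¹ ≠ 1 := by
    intro h
    rw [inv_eq_one] at h
    rw [h, of_one, mul_one] at ha
    exact ha hv
  have h1 := (N.step (w * K.of A v a) v a⁻¹ ha ha1).2
  rw [mul_assoc, ← of_mul, mul_inv_cancel, of_one, mul_one] at h1
  omega

theorem h1pr_left {K : ColGraph} {A : Type} [CommGroup A] (N : K.NF A) (w : K.W A) (u v : K.V)
    (hu : u ∈ N.In w) (hv : v ∈ N.In w) : u ∈ (h1pr N w u v hu hv).1 := by
  simp [h1pr]

theorem h1pr_right {K : ColGraph} {A : Type} [CommGroup A] (N : K.NF A) (w : K.W A) (u v : K.V)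
    (hu : u ∈ N.In w) (hv : v ∈ N.In w) : v ∈ (h1pr N w u v hu hv).1 := by
  simp [h1pr]

/-- See PROOF.md (A_H1). -/
theorem cosetH1 (K : ColGraph) (A : Type) [CommGroup A] (N : K.NF A) (h1 : K.H1) :
    K.CosetH1 A := by
  intro B _ g hinv hadd
  have hP : ∀ w : K.W A, ∃ f : K.Clq → B, ∀ s t, K.lt s t → g s t w = f t - f s := fun w =>
    h1 B (fun s t => g s t w) (fun s t u hst htu => hadd s t u w hst htu)
  choose P hP using hP
  have hd : ∀ w : K.W A, (N.In w).Nonempty → ∃ (v : K.V) (a : A), v ∈ N.In w ∧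
      N.ℓ (w * K.of A v a) < N.ℓ w := by
    rintro w ⟨v, hv⟩
    obtain ⟨a, -, ha⟩ := h1_drop N w v hv
    exact ⟨v, a, hv, ha⟩
  choose vx ax hvx hlt using hd
  obtain ⟨c, hc⟩ : ∃ c : K.W A → B, ∀ w (h : (N.In w).Nonempty),
      c w = P (w * K.of A (vx w h) (ax w h)) (K.h1sg (vx w h)) +
        c (w * K.of A (vx w h) (ax w h)) - P w (K.h1sg (vx w h)) := by
    classical
    let step : ∀ w : K.W A, (∀ y : K.W A, N.ℓ y < N.ℓ w → B) → B := fun w rec =>
      if h : (N.In w).Nonempty then P (w * K.of A (vx w h) (ax w h)) (K.h1sg (vx w h)) +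
        rec (w * K.of A (vx w h) (ax w h)) (hlt w h) - P w (K.h1sg (vx w h)) else 0
    refine ⟨(measure N.ℓ).wf.fix step, fun w h => ?_⟩
    conv_lhs => rw [WellFounded.fix_eq]
    simp only [step, dif_pos h]
  obtain ⟨F, hF⟩ : ∃ F : K.W A → K.Clq → B, ∀ w s, F w s = P w s + c w :=
    ⟨fun w s => P w s + c w, fun _ _ => rfl⟩
  have hFg : ∀ w s t, K.lt s t → g s t w = F w t - F w s := by
    intro w s t hst
    rw [hF, hF, hP w s t hst]
    abel
  have hch : ∀ w (h : (N.In w).Nonempty), F w (K.h1sg (vx w h)) =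
      F (w * K.of A (vx w h) (ax w h)) (K.h1sg (vx w h)) := by
    intro w h
    rw [hF, hF, hc w h]
    abel
  have hone : ∀ w u b (s : K.Clq), u ∈ s.1 → F w s - F w (K.h1sg u) =
      F (w * K.of A u b) s - F (w * K.of A u b) (K.h1sg u) := by
    intro w u b s hu
    by_cases hs : s = K.h1sg u
    · rw [hs, sub_self, sub_self]
    · have hlt' : K.lt (K.h1sg u) s := by
        refine Finset.ssubset_iff_subset_ne.2 ⟨?_, fun h => hs (Subtype.ext h.symm)⟩
        exact Finset.singleton_subset_iff.2 hu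
      rw [← hFg _ _ _ hlt', ← hFg _ _ _ hlt']
      exact (hinv _ _ _ _ _ (Finset.mem_singleton_self u)).symm
  have claim : ∀ n : ℕ, ∀ w, N.ℓ w = n → ∀ s, F w s = F (N.m s w) s := by
    intro n
    induction n using Nat.strong_induction_on with
    | _ n ih =>
      intro w hw s
      by_cases hs : ∃ u ∈ s.1, u ∈ N.In w
      · obtain ⟨u, hus, huw⟩ := hs
        have h : (N.In w).Nonempty := ⟨u, huw⟩
        obtain ⟨y, hy⟩ : ∃ y : K.Clq, y = h1pr N w u (vx w h) huw (hvx w h) := ⟨_, rfl⟩
        have huy : u ∈ y.1 := by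
          rw [hy]
          exact h1pr_left _ _ _ _ _ _
        have hvy : vx w h ∈ y.1 := by
          rw [hy]
          exact h1pr_right _ _ _ _ _ _
        have e1 : F w y = F (w * K.of A (vx w h) (ax w h)) y := by
          have h3 := hone w (vx w h) (ax w h) y hvy
          rw [hch w h] at h3
          exact sub_left_injective h3
        have e2 := ih _ (hw ▸ hlt w h) (w * K.of A (vx w h) (ax w h)) rfl y
        rw [N.m_of y w (vx w h) (ax w h) hvy] at e2
        obtain ⟨b, -, hlb⟩ := h1_drop N w u huw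
        have e4 := ih _ (hw ▸ hlb) (w * K.of A u b) rfl y
        rw [N.m_of y w u b huy] at e4
        have e6 : F w y = F (w * K.of A u b) y := by rw [e1, e2, e4]
        have e7 := hone w u b y huy
        rw [e6] at e7
        have e7' : F w (K.h1sg u) = F (w * K.of A u b) (K.h1sg u) := sub_right_injective e7
        have e8 := hone w u b s hus
        rw [e7'] at e8
        have e9 : F w s = F (w * K.of A u b) s := sub_left_injective e8
        have e10 := ih _ (hw ▸ hlb) (w * K.of A u b) rfl s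
        rw [N.m_of s w u b hus] at e10
        rw [e9, e10]
      · push Not at hs
        rw [N.m_eq_self s w hs]
  refine ⟨fun s w => F w s, fun s w v a hv => ?_, fun s t w hst => hFg w s t hst⟩
  change F (w * K.of A v a) s = F w s
  rw [claim _ _ rfl s, N.m_of s w v a hv, ← claim _ w rfl s]

end ColGraph
end Vale.Agent.P173
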