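import Vale.Agent.Lib.P173.A.Cham

/-! # P173, part A: `H² = 0` of the coset poset -/

namespace Vale.Agent.P173
namespace ColGraph

/-- Extension of a 1-cochain from the subposet of the cliques meeting the clique `κ`
(conically contractible: `s ≥ s ∩ κ ≤ κ`). See PROOF.md (A_H2). -/
theorem extend_cochain (K : ColGraph) (h2 : K.H2) (B : Type) [AddCommGroup B]
    (κ : Finset K.V) (hκ : ∀ v ∈ κ, ∀ w ∈ κ, v ≠ w → K.adj v w)
    (h : K.Clq → K.Clq → K.Clq → B) (g' : K.Clq → K.Clq → B)
    (hg' : ∀ s t u, K.lt s t → K.lt t u → (∃ v ∈ s.1, v ∈ κ) →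
      h s t u = g' s t + g' t u - g' s u) :
    ∃ g : K.Clq → K.Clq → B,
      (∀ s t u, K.lt s t → K.lt t u → h s t u = g s t + g t u - g s u) ∧
      ∀ s t, K.lt s t → (∃ v ∈ s.1, v ∈ κ) → g s t = g' s t := by
  classical
  obtain ⟨g0, hg0⟩ := h2 B h
  -- the difference cochain, with value zero on the diagonal
  let c : K.Clq → K.Clq → B := fun s t => if s = t then 0 else g' s t - g0 s t
  have hc0 : ∀ s, c s s = 0 := fun s => if_pos rfl
  have hc1 : ∀ s t, K.lt s t → c s t = g' s t - g0 s t := by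
    intro s t hst
    refine if_neg ?_
    rintro rfl
    exact (ssubset_irrefl _ hst)
  have hlt : ∀ x y : K.Clq, x.1 ⊆ y.1 → x ≠ y → K.lt x y := by
    intro x y hxy hne
    refine Finset.ssubset_iff_subset_ne.2 ⟨hxy, fun hh => hne (Subtype.ext hh)⟩
  have hc : ∀ x y z : K.Clq, x.1 ⊆ y.1 → y.1 ⊆ z.1 → (∃ v ∈ x.1, v ∈ κ) →
      c x z = c x y + c y z := by
    intro x y z hxy hyz hPx
    by_cases e1 : x = y
    · subst e1
      rw [hc0, zero_add]
    by_cases e2 : y = z
    · subst e2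
      rw [hc0, add_zero]
    have l1 : K.lt x y := hlt x y hxy e1
    have l2 : K.lt y z := hlt y z hyz e2
    have l3 : K.lt x z := Finset.ssubset_of_ssubset_of_subset l1 hyz
    have a1 := hg' x y z l1 l2 hPx
    have a2 := hg0 x y z l1 l2
    rw [a1] at a2
    rw [hc1 x z l3, hc1 x y l1, hc1 y z l2, ← sub_eq_zero]
    calc g' x z - g0 x z - (g' x y - g0 x y + (g' y z - g0 y z))
        = -((g' x y + g' y z - g' x z) - (g0 x y + g0 y z - g0 x z)) := by abel
      _ = 0 := by rw [a2, sub_self, neg_zero]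
  -- the retraction `s ↦ s ∩ κ` and the clique `κ`
  let r : ∀ s : K.Clq, (∃ v ∈ s.1, v ∈ κ) → K.Clq := fun s hs =>
    ⟨s.1.filter (fun v => v ∈ κ), by
      obtain ⟨v, hv, hvκ⟩ := hs
      exact ⟨v, Finset.mem_filter.2 ⟨hv, hvκ⟩⟩, fun v hv w hw hne =>
      s.2.2 v (Finset.mem_filter.1 hv).1 w (Finset.mem_filter.1 hw).1 hne⟩
  let k : ∀ s : K.Clq, (∃ v ∈ s.1, v ∈ κ) → K.Clq := fun s hs =>
    ⟨κ, by
      obtain ⟨v, _, hvκ⟩ := hs
      exact ⟨v, hvκ⟩, hκ⟩
  let φ : K.Clq → B := fun s => if hs : ∃ v ∈ s.1, v ∈ κ then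
    c (r s hs) s - c (r s hs) (k s hs) else 0
  have hφ : ∀ s t : K.Clq, K.lt s t → (∃ v ∈ s.1, v ∈ κ) → φ t - φ s = g' s t - g0 s t := by
    intro s t hst hs
    have hst' : s.1 ⊆ t.1 := hst.1
    have ht : ∃ v ∈ t.1, v ∈ κ := by
      obtain ⟨v, hv, hvκ⟩ := hs
      exact ⟨v, hst' hv, hvκ⟩
    have e1 : φ s = c (r s hs) s - c (r s hs) (k s hs) := dif_pos hs
    have e2 : φ t = c (r t ht) t - c (r t ht) (k t ht) := dif_pos ht
    have hk : k t ht = k s hs := rfl
    have hrs : ∃ v ∈ (r s hs).1, v ∈ κ := by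
      obtain ⟨v, hv, hvκ⟩ := hs
      exact ⟨v, Finset.mem_filter.2 ⟨hv, hvκ⟩, hvκ⟩
    have i1 : (r s hs).1 ⊆ s.1 := Finset.filter_subset _ _
    have i2 : (r t ht).1 ⊆ t.1 := Finset.filter_subset _ _
    have i3 : (r s hs).1 ⊆ (r t ht).1 := Finset.filter_subset_filter _ hst'
    have i4 : (r t ht).1 ⊆ (k s hs).1 := fun v hv => (Finset.mem_filter.1 hv).2
    have b1 := hc (r s hs) (r t ht) (k s hs) i3 i4 hrs
    have b2 := hc (r s hs) (r t ht) t i3 i2 hrs
    have b3 := hc (r s hs) s t i1 hst' hrs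
    rw [e1, e2, hk, ← hc1 s t hst, b1]
    rw [b2] at b3
    calc c (r t ht) t - c (r t ht) (k s hs) -
          (c (r s hs) s - (c (r s hs) (r t ht) + c (r t ht) (k s hs)))
        = (c (r s hs) (r t ht) + c (r t ht) t) - c (r s hs) s := by abel
      _ = c s t := by rw [b3]; abel
  clear_value φ
  refine ⟨fun s t => g0 s t + (φ t - φ s), fun s t u hst htu => ?_, fun s t hst hs => ?_⟩
  · show h s t u = g0 s t + (φ t - φ s) + (g0 t u + (φ u - φ t)) - (g0 s u + (φ u - φ s))
    rw [hg0 s t u hst htu]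
    abel
  · show g0 s t + (φ t - φ s) = g' s t
    rw [hφ s t hst hs]
    abel

/-- See PROOF.md (A_H2). -/
theorem cosetH2 (K : ColGraph) (A : Type) [CommGroup A] (N : K.NF A) (h2 : K.H2) :
    K.CosetH2 A := by
  classical
  intro B _ h hinv
  -- the defining property of the cochain on the fibre `w`
  let Q : K.W A → (K.W A → K.Clq → K.Clq → B) → (K.Clq → K.Clq → B) → Prop := fun w G g =>
    (∀ s t u, K.lt s t → K.lt t u → h s t u w = g s t + g t u - g s u) ∧
      ∀ s t, K.lt s t → (∃ v ∈ s.1, v ∈ N.In w) → g s t = G (N.m s w) s t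
  let step : (w : K.W A) → ((w' : K.W A) → N.ℓ w' < N.ℓ w → K.Clq → K.Clq → B) →
      K.Clq → K.Clq → B := fun w rec =>
    Classical.epsilon (Q w (fun w' => if hw : N.ℓ w' < N.ℓ w then rec w' hw else fun _ _ => 0))
  let G : K.W A → K.Clq → K.Clq → B := (measure N.ℓ).wf.fix step
  have hG : ∀ w, G w = Classical.epsilon
      (Q w (fun w' => if _ : N.ℓ w' < N.ℓ w then G w' else fun _ _ => 0)) := by
    intro w
    exact (measure N.ℓ).wf.fix_eq step w
  -- invariance of `h`
  have hm : ∀ s t u w, h s t u (N.m s w) = h s t u w := by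
    intro s t u w
    have h1 := K.inv_asub A s (h s t u) (fun w v hv a => hinv s t u w v a hv) w
      (w⁻¹ * N.m s w) (N.m_mem s w)
    rw [← h1, mul_inv_cancel_left]
  -- compatibility
  have hcomp : ∀ w s t u, K.lt s t → K.lt t u → Q (N.m s w) G (G (N.m s w)) →
      G (N.m t w) t u = G (N.m s w) t u := by
    intro w s t u hst htu hQ
    have hmm : N.m t (N.m s w) = N.m t w := N.m_m s t w hst.1
    by_cases hex : ∃ v ∈ t.1, v ∈ N.In (N.m s w)
    · rw [hQ.2 t u htu hex, hmm]
    · push Not at hex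
      rw [N.m_eq_self t (N.m s w) hex] at hmm
      rw [← hmm]
  have hspec : ∀ n : ℕ, ∀ w, N.ℓ w = n → Q w G (G w) := by
    intro n
    induction n using Nat.strong_induction_on with
    | _ n ih =>
      intro w hw
      -- the descent set is a finite clique
      have hfin : (N.In w).Finite := by
        refine Set.Finite.of_injOn (f := K.col) (t := Set.univ) (fun _ _ => Set.mem_univ _) ?_
          Set.finite_univ
        intro v hv u hu hvu
        by_contra hne
        exact K.proper v u (N.clique w v hv u hu hne) hvu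
      have hκ : ∀ v ∈ hfin.toFinset, ∀ u ∈ hfin.toFinset, v ≠ u → K.adj v u := by
        intro v hv u hu hne
        rw [Set.Finite.mem_toFinset] at hv hu
        exact N.clique w v hv u hu hne
      have hlt : ∀ s : K.Clq, (∃ v ∈ s.1, v ∈ N.In w) → N.ℓ (N.m s w) < N.ℓ w :=
        fun s hs => N.ℓ_m_lt s w hs
      obtain ⟨g, hg1, hg2⟩ := extend_cochain K h2 B hfin.toFinset hκ (fun s t u => h s t u w)
        (fun s t => G (N.m s w) s t) (by
          intro s t u hst htu hs
          have hs' : ∃ v ∈ s.1, v ∈ N.In w := by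
            obtain ⟨v, hv, hv'⟩ := hs
            rw [Set.Finite.mem_toFinset] at hv'
            exact ⟨v, hv, hv'⟩
          have hQ : Q (N.m s w) G (G (N.m s w)) :=
            ih (N.ℓ (N.m s w)) (by rw [← hw]; exact hlt s hs') (N.m s w) rfl
          show h s t u w = G (N.m s w) s t + G (N.m t w) t u - G (N.m s w) s u
          rw [hcomp w s t u hst htu hQ, ← hm s t u w]
          exact hQ.1 s t u hst htu)
      have hex : ∃ g, Q w (fun w' => if _ : N.ℓ w' < N.ℓ w then G w' else fun _ _ => 0) g := by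
        refine ⟨g, hg1, ?_⟩
        intro s t hst hs
        have h3 : g s t = G (N.m s w) s t := hg2 s t hst (by
          obtain ⟨v, hv, hv'⟩ := hs
          exact ⟨v, hv, (Set.Finite.mem_toFinset hfin).2 hv'⟩)
        rw [h3]
        simp only [dif_pos (hlt s hs)]
      have hsp := Classical.epsilon_spec hex
      rw [← hG w] at hsp
      refine ⟨hsp.1, ?_⟩
      intro s t hst hs
      have h3 := hsp.2 s t hst hs
      simp only [dif_pos (hlt s hs)] at h3
      exact h3
  refine ⟨fun s t w => G (N.m s w) s t, ?_, ?_⟩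
  · intro s t w v a hv
    show G (N.m s (w * K.of A v a)) s t = G (N.m s w) s t
    rw [N.m_of s w v a hv]
  · intro s t u w hst htu
    have hQ := hspec _ (N.m s w) rfl
    show h s t u w = G (N.m s w) s t + G (N.m t w) t u - G (N.m s w) s u
    rw [hcomp w s t u hst htu hQ, ← hm s t u w]
    exact hQ.1 s t u hst htu

end ColGraph
end Vale.Agent.P173
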