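import Vale.Agent.Lib.P173.Interface

/-! # P173, part A: projective dimension two from a resolution -/

namespace Vale.Agent.P173

open CategoryTheory

private theorem pd_ses (R : Type) [Ring R] (X Y Z : Type)
    [AddCommGroup X] [AddCommGroup Y] [AddCommGroup Z] [Module R X] [Module R Y] [Module R Z]
    (f : X →ₗ[R] Y) (g : Y →ₗ[R] Z) (hf : Function.Injective f) (hfg : Function.Exact f g)
    (hg : Function.Surjective g) (n : ℕ)
    (h1 : HasProjectiveDimensionLT (ModuleCat.of R X) n)
    (h2 : HasProjectiveDimensionLT (ModuleCat.of R Y) (n + 1)) :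
    HasProjectiveDimensionLT (ModuleCat.of R Z) (n + 1) := by
  have w : ModuleCat.ofHom f ≫ ModuleCat.ofHom g = 0 := by
    ext x
    exact hfg.apply_apply_eq_zero x
  have hS : (ShortComplex.mk (ModuleCat.ofHom f) (ModuleCat.ofHom g) w).ShortExact := by
    have : Mono (ModuleCat.ofHom f) := (ModuleCat.mono_iff_injective _).mpr hf
    have : Epi (ModuleCat.ofHom g) := (ModuleCat.epi_iff_surjective _).mpr hg
    refine { exact := ?_ , mono_f := ‹_›, epi_g := ‹_› }
    rw [ShortComplex.moduleCat_exact_iff]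
    intro y hy
    exact (hfg y).mp hy
  exact hS.hasProjectiveDimensionLT_X₃ n h1 h2

private theorem pd_proj (R : Type) [Ring R] (P : Type) [AddCommGroup P] [Module R P]
    [Module.Projective R P] (n : ℕ) :
    HasProjectiveDimensionLT (ModuleCat.of R P) (n + 1) := by
  have h : Projective (ModuleCat.of R P) :=
    (IsProjective.iff_projective P).mp inferInstance
  have h1 : HasProjectiveDimensionLT (ModuleCat.of R P) 1 :=
    projective_iff_hasProjectiveDimensionLT_one.mp h
  exact hasProjectiveDimensionLT_of_ge _ 1 (n + 1) (by omega)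

/-- An exact sequence `0 → P₂ → P₁ → P₀ → T → 0` with projective `Pᵢ` gives `pd T ≤ 2`.
Proof: `ShortComplex.ShortExact.hasProjectiveDimensionLT_X₃` twice in `ModuleCat R`, with the
kernel of `ε` in the middle (`0 → P₂ → P₁ → ker ε → 0` and `0 → ker ε → P₀ → T → 0`). -/
theorem pd_le_two (R : Type) [Ring R] (P₂ P₁ P₀ T : Type)
    [AddCommGroup P₂] [AddCommGroup P₁] [AddCommGroup P₀] [AddCommGroup T]
    [Module R P₂] [Module R P₁] [Module R P₀] [Module R T]
    [Module.Projective R P₂] [Module.Projective R P₁] [Module.Projective R P₀]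
    (d₂ : P₂ →ₗ[R] P₁) (d₁ : P₁ →ₗ[R] P₀) (ε : P₀ →ₗ[R] T)
    (h₂ : Function.Injective d₂) (h₁ : Function.Exact d₂ d₁) (h₀ : Function.Exact d₁ ε)
    (hε : Function.Surjective ε) : HasProjectiveDimensionLE (ModuleCat.of R T) 2 := by
  let d₁' : P₁ →ₗ[R] LinearMap.ker ε :=
    LinearMap.codRestrict (LinearMap.ker ε) d₁ (fun x => h₀.apply_apply_eq_zero x)
  have hd : ∀ x, ((d₁' x : LinearMap.ker ε) : P₀) = d₁ x := fun x => rfl
  have e1 : Function.Exact d₂ d₁' := by
    intro y
    rw [← h₁ y, ← hd y]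
    exact ⟨fun h => by rw [h]; rfl, fun h => Subtype.ext h⟩
  have s1 : Function.Surjective d₁' := by
    rintro ⟨y, hy⟩
    obtain ⟨x, hx⟩ := (h₀ y).mp hy
    exact ⟨x, Subtype.ext hx⟩
  have e2 : Function.Exact (LinearMap.ker ε).subtype ε := LinearMap.exact_subtype_ker_map ε
  have hk : HasProjectiveDimensionLT (ModuleCat.of R (LinearMap.ker ε)) 2 :=
    pd_ses R P₂ P₁ (LinearMap.ker ε) d₂ d₁' h₂ e1 s1 1 (pd_proj R P₂ 0) (pd_proj R P₁ 1)
  exact pd_ses R (LinearMap.ker ε) P₀ T (LinearMap.ker ε).subtype ε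
    (LinearMap.ker ε).injective_subtype e2 hε 2 hk (pd_proj R P₀ 2)

end Vale.Agent.P173
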