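import Vale.Agent.Lib.P173.A.Chains
import Vale.Agent.Lib.P173.A.H0
import Vale.Agent.Lib.P173.A.H1
import Vale.Agent.Lib.P173.A.H2
import Vale.Agent.Lib.P173.A.FreeProj
import Vale.Agent.Lib.P173.A.PdTwo

/-! # P173, part A: the upper bound for the cohomological dimension -/

namespace Vale.Agent.P173

open CategoryTheory

theorem exists_linear {G V U : Type} [Group G] [AddCommGroup V] [AddCommGroup U]
    (ρ : Representation ℤ G V) (σ : Representation ℤ G U) (f : V →ₗ[ℤ] U)
    (h : ∀ g v, f (ρ g v) = σ g (f v)) :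
    ∃ F : ρ.asModule →ₗ[MonoidAlgebra ℤ G] σ.asModule,
      ∀ v : ρ.asModule, σ.asModuleEquiv (F v) = f (ρ.asModuleEquiv v) := by
  let f' : ρ.asModule →ₗ[ℤ] σ.asModule :=
    (σ.asModuleEquiv.symm.toLinearMap.comp f).comp ρ.asModuleEquiv.toLinearMap
  refine ⟨MonoidAlgebra.equivariantOfLinearOfComm f' ?_, ?_⟩
  · intro g v
    show σ.asModuleEquiv.symm (f (ρ.asModuleEquiv (MonoidAlgebra.single g 1 • v))) =
      MonoidAlgebra.single g (1 : ℤ) • σ.asModuleEquiv.symm (f (ρ.asModuleEquiv v))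
    have h1 : ρ.asModuleEquiv (MonoidAlgebra.single g (1 : ℤ) • v) = ρ g (ρ.asModuleEquiv v) := by
      rw [Representation.asModuleEquiv_map_smul, Representation.asAlgebraHom_single, one_smul]
    have h2 : ∀ u : U, σ.asModuleEquiv.symm (σ g u) =
        MonoidAlgebra.single g (1 : ℤ) • σ.asModuleEquiv.symm u := fun u =>
      Representation.asModuleEquiv_symm_map_rho σ g u
    rw [h1, h, h2]
  · intro v
    rfl

/-- permutation of the basis by a group element -/
noncomputable abbrev act (G S : Type) [Group G] [MulAction G S] (g : G) :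
    (S →₀ ℤ) →ₗ[ℤ] (S →₀ ℤ) := Finsupp.lmapDomain ℤ ℤ (g • ·)

/-- conjugate a map of finitely supported functions to the monoid algebra types -/
noncomputable def conj {S T : Type} (f : (S →₀ ℤ) →ₗ[ℤ] (T →₀ ℤ)) :
    MonoidAlgebra ℤ S →ₗ[ℤ] MonoidAlgebra ℤ T :=
  (MonoidAlgebra.coeffLinearEquiv ℤ).symm.toLinearMap ∘ₗ f ∘ₗ
    (MonoidAlgebra.coeffLinearEquiv ℤ).toLinearMap

theorem conj_comm {G S T : Type} [Group G] [MulAction G S] [MulAction G T]
    (f : (S →₀ ℤ) →ₗ[ℤ] (T →₀ ℤ)) (h : ∀ g z, f (act G S g z) = act G T g (f z)) (g : G)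
    (z : MonoidAlgebra ℤ S) : conj f (Representation.ofMulAction ℤ G S g z) =
      Representation.ofMulAction ℤ G T g (conj f z) := by
  rw [Representation.ofMulAction_def, Representation.ofMulAction_def]
  simp only [conj, LinearMap.comp_apply, LinearEquiv.coe_coe, LinearEquiv.apply_symm_apply]
  rw [h g]

theorem partA : PartA := by
  intro K A _ hn hW h0 h1 h2
  obtain ⟨ℓ, In, hcl, hmin, hstep, hcomm⟩ := hW K A
  let N : K.NF A := ⟨ℓ, In, hcl, hmin, hstep, hcomm⟩
  have H0 := K.cosetH0 A h0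
  have H1 := K.cosetH1 A N h1
  have H2 := K.cosetH2 A N h2
  have := projective_ofMulAction (K.G A) (K.S0 A) (K.free0 A)
  have := projective_ofMulAction (K.G A) (K.S1 A) (K.free1 A)
  have := projective_ofMulAction (K.G A) (K.S2 A) (K.free2 A)
  have a2 : ∀ (g : K.G A) p x, act (K.G A) (K.S2 A) g (K.e2 A p x) =
      K.e2 A p (K.incl A g • x) := fun g p x => Finsupp.mapDomain_single
  have a1 : ∀ (g : K.G A) p x, act (K.G A) (K.S1 A) g (K.e1 A p x) =
      K.e1 A p (K.incl A g • x) := fun g p x => Finsupp.mapDomain_single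
  have a0 : ∀ (g : K.G A) p x, act (K.G A) (K.S0 A) g (K.e0 A p x) =
      K.e0 A p (K.incl A g • x) := fun g p x => Finsupp.mapDomain_single
  have c2 : ∀ (g : K.G A) (z : K.S2 A →₀ ℤ),
      K.D2 A (act (K.G A) (K.S2 A) g z) = act (K.G A) (K.S1 A) g (K.D2 A z) := by
    intro g z
    suffices h : (K.D2 A).comp (act (K.G A) (K.S2 A) g) =
      (act (K.G A) (K.S1 A) g).comp (K.D2 A) from congrArg (fun f => f z) h
    apply Finsupp.lhom_ext'
    rintro ⟨p, x⟩
    apply LinearMap.ext_ring
    show K.D2 A (act (K.G A) (K.S2 A) g (K.e2 A p x)) =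
      act (K.G A) (K.S1 A) g (K.D2 A (K.e2 A p x))
    rw [a2, K.D2_e2, K.D2_e2, map_sub, map_add, a1, a1, a1, K.proj_smul]
  have c1 : ∀ (g : K.G A) (z : K.S1 A →₀ ℤ),
      K.D1 A (act (K.G A) (K.S1 A) g z) = act (K.G A) (K.S0 A) g (K.D1 A z) := by
    intro g z
    suffices h : (K.D1 A).comp (act (K.G A) (K.S1 A) g) =
      (act (K.G A) (K.S0 A) g).comp (K.D1 A) from congrArg (fun f => f z) h
    apply Finsupp.lhom_ext'
    rintro ⟨p, x⟩
    apply LinearMap.ext_ring
    show K.D1 A (act (K.G A) (K.S1 A) g (K.e1 A p x)) =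
      act (K.G A) (K.S0 A) g (K.D1 A (K.e1 A p x))
    rw [a1, K.D1_e1, K.D1_e1, map_sub, a0, a0, K.proj_smul]
  have c0' : ∀ (g : K.G A) (z : K.S0 A →₀ ℤ),
      K.D0 A (act (K.G A) (K.S0 A) g z) = K.D0 A z := by
    intro g z
    suffices h : (K.D0 A).comp (act (K.G A) (K.S0 A) g) = K.D0 A from
      congrArg (fun f => f z) h
    apply Finsupp.lhom_ext'
    rintro ⟨p, x⟩
    apply LinearMap.ext_ring
    show K.D0 A (act (K.G A) (K.S0 A) g (K.e0 A p x)) = K.D0 A (K.e0 A p x)
    rw [a0, K.D0_e0, K.D0_e0]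
  let D0' : MonoidAlgebra ℤ (K.S0 A) →ₗ[ℤ] ℤ :=
    K.D0 A ∘ₗ (MonoidAlgebra.coeffLinearEquiv ℤ).toLinearMap
  have c0 : ∀ (g : K.G A) (z : MonoidAlgebra ℤ (K.S0 A)),
      D0' (Representation.ofMulAction ℤ (K.G A) (K.S0 A) g z) =
        Representation.trivial ℤ (K.G A) ℤ g (D0' z) := by
    intro g z
    rw [Representation.ofMulAction_def]
    simp only [D0', LinearMap.comp_apply, LinearEquiv.coe_coe, LinearEquiv.apply_symm_apply]
    exact c0' g _
  obtain ⟨F2, hF2⟩ := exists_linear _ _ (conj (K.D2 A)) (conj_comm _ c2)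
  obtain ⟨F1, hF1⟩ := exists_linear _ _ (conj (K.D1 A)) (conj_comm _ c1)
  obtain ⟨F0, hF0⟩ := exists_linear _ _ D0' c0
  refine pd_le_two (MonoidAlgebra ℤ (K.G A)) _ _ _ _ F2 F1 F0 ?_ ?_ ?_ ?_
  · intro a b hab
    have h := congrArg (Representation.asModuleEquiv _) hab
    rw [hF2, hF2] at h
    simp only [conj, LinearMap.comp_apply, LinearEquiv.coe_coe] at h
    exact (LinearEquiv.injective _) ((LinearEquiv.injective _)
      (K.D2_injective A H2 ((LinearEquiv.injective _) h)))
  · intro z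
    constructor
    · intro hz
      have h := congrArg (Representation.asModuleEquiv _) hz
      rw [hF1, map_zero] at h
      simp only [conj, LinearMap.comp_apply, LinearEquiv.coe_coe,
        LinearEquiv.map_eq_zero_iff] at h
      obtain ⟨y, hy⟩ := K.exact1 A H1 _ h
      refine ⟨(Representation.asModuleEquiv _).symm
        ((MonoidAlgebra.coeffLinearEquiv ℤ).symm y), ?_⟩
      apply (LinearEquiv.injective (Representation.asModuleEquiv _))
      rw [hF2, LinearEquiv.apply_symm_apply]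
      simp only [conj, LinearMap.comp_apply, LinearEquiv.coe_coe, LinearEquiv.apply_symm_apply]
      rw [hy, LinearEquiv.symm_apply_apply]
    · rintro ⟨y, rfl⟩
      apply (LinearEquiv.injective (Representation.asModuleEquiv _))
      rw [hF1, hF2]
      simp only [conj, LinearMap.comp_apply, LinearEquiv.coe_coe, LinearEquiv.apply_symm_apply]
      rw [K.D1_D2, map_zero, map_zero]
  · intro z
    constructor
    · intro hz
      have h := congrArg (Representation.asModuleEquiv _) hz
      rw [hF0, map_zero] at h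
      simp only [D0', LinearMap.comp_apply, LinearEquiv.coe_coe] at h
      obtain ⟨y, hy⟩ := K.exact0 A H0 hn _ h
      refine ⟨(Representation.asModuleEquiv _).symm
        ((MonoidAlgebra.coeffLinearEquiv ℤ).symm y), ?_⟩
      apply (LinearEquiv.injective (Representation.asModuleEquiv _))
      rw [hF1, LinearEquiv.apply_symm_apply]
      simp only [conj, LinearMap.comp_apply, LinearEquiv.coe_coe, LinearEquiv.apply_symm_apply]
      rw [hy, LinearEquiv.symm_apply_apply]
    · rintro ⟨y, rfl⟩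
      apply (LinearEquiv.injective (Representation.asModuleEquiv _))
      rw [hF0, hF1]
      simp only [conj, D0', LinearMap.comp_apply, LinearEquiv.coe_coe,
        LinearEquiv.apply_symm_apply]
      rw [K.D0_D1, map_zero]
  · intro n
    obtain ⟨v₀⟩ := hn
    let s₀ : K.Clq := ⟨{v₀}, by simp, by
      intro v hv w hw hne
      simp only [Finset.mem_singleton] at hv hw
      exact absurd (hv.trans hw.symm) hne⟩
    refine ⟨(Representation.asModuleEquiv _).symm ((MonoidAlgebra.coeffLinearEquiv ℤ).symm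
      ((Representation.asModuleEquiv _ n : ℤ) • K.e0 A s₀
        ((1 : K.W A) : K.W A ⧸ K.asub A s₀))), ?_⟩
    apply (LinearEquiv.injective (Representation.asModuleEquiv _))
    rw [hF0, LinearEquiv.apply_symm_apply]
    simp only [D0', LinearMap.comp_apply, LinearEquiv.coe_coe, LinearEquiv.apply_symm_apply]
    rw [map_smul, K.D0_e0, smul_eq_mul, mul_one]

end Vale.Agent.P173
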